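import Vale.Agent.P078.Finite.Expect
import Vale.Agent.P078.Finite.Split

/-!
# The span of the normalisers is spanned by symmetries normalising the MASA
-/

namespace Vale.Agent.P078.Finite

open ComplexInnerProductSpace
open Vale.Agent.P078 Vale.Agent.P078.General

universe u

variable {H : Type u} [NormedAddCommGroup H] [InnerProductSpace ℂ H] [CompleteSpace H]
variable {M : VonNeumannAlgebra H} {A : StarSubalgebra ℂ (H →L[ℂ] H)} {Ω : H}

/-- A symmetry of `M` normalising `A`. -/
def IsSym (M : VonNeumannAlgebra H) (A : StarSubalgebra ℂ (H →L[ℂ] H)) (s : H →L[ℂ] H) : Prop :=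
  s ∈ M ∧ IsSelfAdjoint s ∧ s * s = 1 ∧ ∀ a ∈ A, s * a * s ∈ A

/-- Linear span of the elements `b s`, `b ∈ A`, `s` a normalising symmetry. -/
def symSpan (M : VonNeumannAlgebra H) (A : StarSubalgebra ℂ (H →L[ℂ] H)) :
    Submodule ℂ (H →L[ℂ] H) :=
  Submodule.span ℂ {z | ∃ b ∈ A, ∃ s, IsSym M A s ∧ z = b * s}

lemma isSym_one : IsSym M A (1 : H →L[ℂ] H) :=
  ⟨one_mem M, IsSelfAdjoint.one _, one_mul 1, fun a ha => by simpa using ha⟩

lemma symSpan_mem_A {a : H →L[ℂ] H} (ha : a ∈ A) : a ∈ symSpan M A :=
  Submodule.subset_span ⟨a, ha, 1, isSym_one, (mul_one a).symm⟩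

lemma symSpan_mul_left {a y : H →L[ℂ] H} (ha : a ∈ A) (hy : y ∈ symSpan M A) :
    a * y ∈ symSpan M A := by
  induction hy using Submodule.span_induction with
  | mem z hz =>
    obtain ⟨b, hb, s, hs, rfl⟩ := hz
    exact Submodule.subset_span ⟨a * b, mul_mem ha hb, s, hs, (mul_assoc _ _ _).symm⟩
  | zero => simp
  | add u v _ _ hu hv => rw [mul_add]; exact add_mem hu hv
  | smul c u _ hu => rw [mul_smul_comm]; exact Submodule.smul_mem _ c hu

lemma symSpan_mul_right {a y : H →L[ℂ] H} (ha : a ∈ A) (hy : y ∈ symSpan M A) :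
    y * a ∈ symSpan M A := by
  induction hy using Submodule.span_induction with
  | mem z hz =>
    obtain ⟨b, hb, s, hs, rfl⟩ := hz
    refine Submodule.subset_span ⟨b * (s * a * s), mul_mem hb (hs.2.2.2 a ha), s, hs, ?_⟩
    simp only [mul_assoc, hs.2.2.1, mul_one]
  | zero => simp
  | add u v _ _ hu hv => rw [add_mul]; exact add_mem hu hv
  | smul c u _ hu => rw [smul_mul_assoc]; exact Submodule.smul_mem _ c hu

lemma symSpan_le_vna (hA : IsMASAIn M A) {y : H →L[ℂ] H} (hy : y ∈ symSpan M A) : y ∈ M :=
  (Submodule.span_le.2 (fun z hz => by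
      obtain ⟨b, hb, s, hs, rfl⟩ := hz
      exact (mul_mem (hA.mem_M hb) hs.1 : b * s ∈ M)) : symSpan M A ≤ vnaSubmodule M) hy

/-- A separated piece of a normaliser is a projection of `A` times a symmetry. -/
lemma exists_sym (hA : IsMASAIn M A) {v p : H →L[ℂ] H} (hv : IsNormaliser M A v) (hpA : p ∈ A)
    (hp : IsStarProjection p) (hsp : star v * v * p = p) (hsep : p * (v * p * star v) = 0) :
    ∃ s, IsSym M A s ∧ v * p = v * p * star v * s := by
  set u := v * p with hu
  set q := v * p * star v with hq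
  have hqA : q ∈ A := hv.conj_mem hpA
  have hq' : IsStarProjection q := hv.conj_proj hA hpA hp
  have hup : u * p = u := by rw [hu, mul_assoc, hp.isIdempotentElem.eq]
  have hus : star u = p * star v := by rw [hu, star_mul, hp.isSelfAdjoint.star_eq]
  have huu : u * star u = q := by rw [hus, hu, ← mul_assoc, mul_assoc v p p, hp.isIdempotentElem.eq]
  have hsu : star u * u = p := by
    rw [hus, hu, mul_assoc, ← mul_assoc (star v), hsp, hp.isIdempotentElem.eq]
  have hqu : q * u = u := by
    rw [← huu, mul_assoc, hsu, hup]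
  have hqp : q * p = 0 := by rw [hA.comm hqA hpA, hsep]
  have hu0 : u * u = 0 := by
    calc u * u = u * p * (q * u) := by rw [hup, hqu]
      _ = u * (p * q) * u := by simp only [mul_assoc]
      _ = 0 := by rw [hsep, mul_zero, zero_mul]
  have huq : u * q = 0 := by
    calc u * q = u * p * q := by rw [hup]
      _ = u * (p * q) := mul_assoc _ _ _
      _ = 0 := by rw [hsep, mul_zero]
  have hpu : p * u = 0 := by rw [← hqu, ← mul_assoc, hsep, zero_mul]
  have hps : star u * p = 0 := by
    simpa [star_mul, hp.isSelfAdjoint.star_eq] using congrArg star hpu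
  have hqs : q * star u = 0 := by
    simpa [star_mul, hq'.isSelfAdjoint.star_eq] using congrArg star huq
  have hsp' : p * star u = star u := by
    simpa [star_mul, hp.isSelfAdjoint.star_eq] using congrArg star hup
  have hsq : star u * q = star u := by
    simpa [star_mul, hq'.isSelfAdjoint.star_eq] using congrArg star hqu
  have hss : star u * star u = 0 := by
    simpa [star_mul] using congrArg star hu0
  set e := 1 - p - q with he
  have heA : e ∈ A := sub_mem (sub_mem (one_mem A) hpA) hqA
  have hue : u * e = 0 := by rw [he, mul_sub, mul_sub, mul_one, hup, huq]; abel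
  have heu : e * u = 0 := by rw [he, sub_mul, sub_mul, one_mul, hpu, hqu]; abel
  have hse : star u * e = 0 := by rw [he, mul_sub, mul_sub, mul_one, hps, hsq]; abel
  have hes : e * star u = 0 := by rw [he, sub_mul, sub_mul, one_mul, hsp', hqs]; abel
  have hee : e * e = e := by
    rw [he]
    simp only [mul_sub, sub_mul, mul_one, one_mul, hp.isIdempotentElem.eq,
      hq'.isIdempotentElem.eq, hqp, hsep]
    abel
  have hes' : star e = e := by
    rw [he, star_sub, star_sub, star_one, hp.isSelfAdjoint.star_eq, hq'.isSelfAdjoint.star_eq]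
  have huM : u ∈ M := mul_mem hv.mem (hA.mem_M hpA)
  refine ⟨u + star u + e, ⟨add_mem (add_mem huM (star_mem huM)) (hA.mem_M heA), ?_, ?_, ?_⟩, ?_⟩
  · rw [IsSelfAdjoint, star_add, star_add, star_star, hes', add_comm (star u)]
  · simp only [mul_add, add_mul, hu0, hss, hue, heu, hse, hes, huu, hsu, hee]
    rw [he]; abel
  · intro a ha
    have m1 : u * a * star u ∈ A := by
      rw [hus, hu]
      have := hv.conj_mem (mul_mem (mul_mem hpA ha) hpA)
      simpa only [mul_assoc] using this
    have m2 : star u * a * u ∈ A := by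
      rw [hus, hu]
      have := mul_mem (mul_mem hpA (hv.conj_mem' ha)) hpA
      simpa only [mul_assoc] using this
    have cp := hA.comm hpA ha
    have cq := hA.comm hqA ha
    have ce := hA.comm heA ha
    have z1 : u * a * u = 0 := by
      calc u * a * u = u * p * a * u := by rw [hup]
        _ = u * (p * a) * u := by rw [mul_assoc u p a]
        _ = u * a * (p * u) := by rw [cp]; simp only [mul_assoc]
        _ = 0 := by rw [hpu, mul_zero]
    have z2 : star u * a * star u = 0 := by
      calc star u * a * star u = star u * q * a * star u := by rw [hsq]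
        _ = star u * (q * a) * star u := by rw [mul_assoc (star u) q a]
        _ = star u * a * (q * star u) := by rw [cq]; simp only [mul_assoc]
        _ = 0 := by rw [hqs, mul_zero]
    have z3 : u * a * e = 0 := by rw [mul_assoc, ← ce, ← mul_assoc, hue, zero_mul]
    have z4 : star u * a * e = 0 := by rw [mul_assoc, ← ce, ← mul_assoc, hse, zero_mul]
    have z5 : e * a * u = 0 := by rw [ce, mul_assoc, heu, mul_zero]
    have z6 : e * a * star u = 0 := by rw [ce, mul_assoc, hes, mul_zero]
    simp only [mul_add, add_mul, z1, z2, z3, z4, z5, z6, zero_add, add_zero]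
    exact add_mem (add_mem m2 m1) (mul_mem (mul_mem heA ha) heA)
  · rw [mul_add, mul_add, hqu, hqs, he, mul_sub, mul_sub, mul_one, hqp, hq'.isIdempotentElem.eq]
    abel

variable (h : FinSetting M A Ω)
include h

lemma normaliser_mem_symSpan {v : H →L[ℂ] H} (hv : IsNormaliser M A v) : v ∈ symSpan M A := by
  obtain ⟨f, p, ⟨hfA, hf⟩, hp, hfp, hpp, hsum, hvf, hsep⟩ := exists_split h hv
  have e : v = v * f + ∑ i, v * p i := by
    rw [← Finset.mul_sum, ← mul_add, hsum, hv.mul_src]
  rw [e]
  refine add_mem (symSpan_mem_A hvf) (Submodule.sum_mem _ (fun i _ => ?_))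
  have hsp : star v * v * p i = p i := by
    rw [← hsum, add_mul, hfp i, zero_add, Finset.sum_mul, Finset.sum_eq_single i
      (fun j _ hj => hpp j i hj) (by simp)]
    exact (hp i).2.isIdempotentElem
  obtain ⟨s, hs, he⟩ := exists_sym h.masa hv (hp i).1 (hp i).2 hsp (hsep i)
  exact Submodule.subset_span ⟨_, hv.conj_mem (hp i).1, s, hs, he⟩

lemma spanN_le_symSpan : spanN M A ≤ symSpan M A :=
  Submodule.span_le.2 (fun _ hv => normaliser_mem_symSpan h hv)

omit h in
lemma exists_repr {y : H →L[ℂ] H} (hy : y ∈ symSpan M A) :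
    ∃ (L : ℕ) (s b : Fin L → (H →L[ℂ] H)),
      (∀ i, s i ∈ M ∧ IsSelfAdjoint (s i) ∧ s i * s i = 1 ∧ ∀ a ∈ A, s i * a * s i ∈ A) ∧
      (∀ i, b i ∈ A) ∧ y = ∑ i, b i * s i := by
  obtain ⟨L, c, g, e⟩ := Submodule.mem_span_set'.1 hy
  choose b hb s hs he using fun i => (g i).2
  refine ⟨L, s, fun i => c i • b i, hs, fun i => A.toSubalgebra.smul_mem (hb i) _, ?_⟩
  rw [← e]
  exact Finset.sum_congr rfl (fun i _ => by rw [he i, smul_mul_assoc])

end Vale.Agent.P078.Finite
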