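import Vale.Agent.P078.Assembly.Trunc
import Vale.Agent.P078.Assembly.SymSpan
import Vale.Agent.P078.General.Residual

/-!
# Approximation in the part generated by the normalisers
-/

namespace Vale.Agent.P078.Finite

open ComplexInnerProductSpace
open Filter Topology
open Vale.Agent.P078 Vale.Agent.P078.General

universe u

variable {H : Type u} [NormedAddCommGroup H] [InnerProductSpace ℂ H] [CompleteSpace H]
variable {M : VonNeumannAlgebra H} {A : StarSubalgebra ℂ (H →L[ℂ] H)} {Ω : H}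

lemma plimₗ_eq (hA : IsMASAIn M A) (y : H →L[ℂ] H) : plimₗ hA y = plim hA y := rfl

variable (h : FinSetting M A Ω)
include h

omit h in
lemma l2Paved_of_part {c : ℝ} {r : ℕ} {x : H →L[ℂ] H}
    (hx : ∀ η : ℝ, 0 < η → ∃ P : Part A, P.n = r ∧ ∃ z ∈ M, IsSelfAdjoint z ∧ ‖z‖ ≤ c ∧
      ‖(P.pinch x - z) Ω‖ ≤ η) : L2Paved M A Ω c r x := by
  intro η hη
  obtain ⟨P, hn, z, hz⟩ := hx η hη
  subst hn
  exact ⟨P.e, fun i => ⟨P.mem i, P.proj i⟩, P.orth, P.total, z, hz⟩

omit h in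
lemma re_inner_le_opNorm (x : H →L[ℂ] H) (v : H) : (⟪x v, v⟫).re ≤ ‖x‖ * ‖v‖ ^ 2 := by
  refine (Complex.re_le_norm _).trans ((norm_inner_le_norm _ _).trans ?_)
  rw [sq, ← mul_assoc]
  exact mul_le_mul_of_nonneg_right (x.le_opNorm v) (norm_nonneg _)

/-- Approximation by bounded elements of the span of the normalisers. -/
lemma exists_span_approx {x : H →L[ℂ] H} (hx : InN M A Ω x) (hxs : IsSelfAdjoint x)
    (hx1 : ‖x‖ ≤ 1) {η : ℝ} (hη : 0 < η) :
    ∃ t ∈ spanN M A, IsSelfAdjoint t ∧ ‖t‖ ≤ 3 / 2 ∧ ‖(x - t) Ω‖ ≤ η := by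
  obtain ⟨s₀, hs₀, hd⟩ := hx.exists_approx (show 0 < η / 4 by linarith)
  set s := (2⁻¹ : ℂ) • (s₀ + Star.star s₀) with hs
  have hsm : s ∈ spanN M A := Submodule.smul_mem _ _ (add_mem hs₀ (spanN_star hs₀))
  have hss : IsSelfAdjoint s := by simp [IsSelfAdjoint, s, star_smul, add_comm, map_ofNat]
  have hsM := spanN_mem_M hsm
  have hxsd : ‖(x - s) Ω‖ ≤ η / 4 := by
    have e : x - s = (2⁻¹ : ℂ) • ((x - s₀) + Star.star (x - s₀)) := by
      rw [star_sub, hxs.star_eq, hs]; module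
    rw [e, smul_apply, norm_smul, add_apply]
    refine le_trans (mul_le_mul_of_nonneg_left (norm_add_le _ _) (norm_nonneg _)) ?_
    rw [norm_star_apply h (sub_mem hx.1 (spanN_mem_M hs₀))]
    rw [sub_apply] at hd ⊢
    norm_num
    linarith
  set f := cfc (clamp 1) s with hf
  have hxf : ‖(x - f) Ω‖ ≤ 3 * (η / 4) := by
    have h1 := norm_exc_le h hsM hss hx.1 hxs (z := 1)
      (fun v => (re_inner_le_opNorm x v).trans (mul_le_mul_of_nonneg_right hx1 (sq_nonneg _)))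
    have h2 := norm_exc_le h (neg_mem hsM) hss.neg (neg_mem hx.1) hxs.neg (z := 1)
      (fun v => (re_inner_le_opNorm (-x) v).trans
        (mul_le_mul_of_nonneg_right (by rwa [norm_neg]) (sq_nonneg _)))
    have h3 := norm_sub_clamp_le (Ω := Ω) hss (zero_le_one' ℝ)
    have e1 : ‖(-s - -x) Ω‖ = ‖(x - s) Ω‖ := by
      rw [show -s - -x = x - s by abel]
    have e2 : ‖(s - x) Ω‖ = ‖(x - s) Ω‖ := by
      rw [← neg_sub x s, neg_apply, norm_neg]
    rw [e1] at h2
    rw [e2] at h1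
    calc ‖(x - f) Ω‖ ≤ ‖(x - s) Ω‖ + ‖(s - f) Ω‖ := by
          rw [show x - f = (x - s) + (s - f) by abel, add_apply]; exact norm_add_le _ _
      _ ≤ _ := by linarith
  set δ := min (η / (4 * (‖Ω‖ + 1))) (1 / 2) with hδ
  have hδ0 : 0 < δ := lt_min (by positivity) (by norm_num)
  obtain ⟨P, hP⟩ := exists_polynomial_near_of_continuousOn (-‖s‖) ‖s‖ (clamp 1)
    (clamp_continuous 1).continuousOn _ hδ0
  set t := Polynomial.aeval s P with ht
  have hpow : ∀ k : ℕ, s ^ k ∈ spanN M A := fun k => by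
    induction k with
    | zero => simpa using spanN_one h.masa
    | succ k ih => rw [pow_succ]; exact spanN_mul h.masa ih hsm
  have htm : t ∈ spanN M A := by
    rw [ht, Polynomial.aeval_eq_sum_range]
    refine Submodule.sum_mem _ (fun k _ => ?_)
    rw [← Complex.coe_smul]
    exact Submodule.smul_mem _ _ (hpow k)
  have hte : t = cfc P.eval s := (cfc_polynomial P s hss).symm
  have hn : ‖f - t‖ ≤ δ := by
    rw [hte, hf, ← cfc_sub (a := s) (clamp 1) P.eval (clamp_continuous 1).continuousOn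
      P.continuous.continuousOn]
    refine norm_cfc_le hδ0.le (fun u hu => ?_)
    rcases subsingleton_or_nontrivial (H →L[ℂ] H) with hs' | hs'
    · simp [spectrum.of_subsingleton] at hu
    have hu' := spectrum.norm_le_norm_of_mem hu
    rw [Real.norm_eq_abs] at hu' ⊢
    rw [abs_sub_comm]
    exact (hP u (abs_le.1 hu')).le
  refine ⟨t, htm, hte ▸ cfc_predicate _ _, ?_, ?_⟩
  · have := norm_sub_norm_le t f
    rw [norm_sub_rev] at this
    linarith [norm_cfc_clamp_le (zero_le_one' ℝ) s, min_le_right (η / (4 * (‖Ω‖ + 1))) (1 / 2)]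
  · have h4 : ‖(f - t) Ω‖ ≤ η / 4 := by
      refine (norm_sum_apply_le hn Ω).trans ((mul_le_mul_of_nonneg_right
        (min_le_left _ _) (norm_nonneg Ω)).trans ?_)
      rw [div_mul_eq_mul_div, div_le_iff₀ (by positivity)]
      nlinarith [norm_nonneg Ω]
    calc ‖(x - t) Ω‖ ≤ ‖(x - f) Ω‖ + ‖(f - t) Ω‖ := by
          rw [show x - t = (x - f) + (f - t) by abel, add_apply]; exact norm_add_le _ _
      _ ≤ η := by linarith

lemma plim_eq_zero_of_orthN {w : H →L[ℂ] H} (hw : w ∈ M) (hN : OrthN M A Ω w) :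
    plim h.masa w = 0 := by
  have hA := h.masa
  set a := plim hA w with ha
  have haA : a ∈ A := plim_mem hA hw
  refine h.faithful _ (hA.mem_M haA) (norm_eq_zero.1 (le_antisymm ?_ (norm_nonneg _)))
  refine le_of_forall_pos_le_add (fun η hη => ?_)
  rw [zero_add]
  obtain ⟨P, hP⟩ := tendsto_pinch h hw hη
  have h1 := hP P le_rfl
  have h2 : ⟪a Ω, P.pinch w Ω⟫ = 0 := by
    rw [← inner_pinch_apply h P a hw (hA.mem_M haA), pinch_of_mem hA haA]
    exact orthN_iff.1 hN _ (inN_of_mem h haA).2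
  rw [sub_apply] at h1
  have h3 : ‖a Ω‖ ^ 2 ≤ ‖a Ω‖ * ‖P.pinch w Ω - a Ω‖ := by
    have e : (⟪a Ω, a Ω - P.pinch w Ω⟫).re = ‖a Ω‖ ^ 2 := by
      rw [inner_sub_right, h2, sub_zero, @norm_sq_eq_re_inner ℂ]; rfl
    rw [← e, norm_sub_rev]
    exact (Complex.re_le_norm _).trans (norm_inner_le_norm _ _)
  rcases eq_or_lt_of_le (norm_nonneg (a Ω)) with h0 | h0
  · rw [← h0]; exact hη.le
  · exact (le_of_mul_le_mul_left ((sq _).symm.trans_le h3) h0).trans h1

end Vale.Agent.P078.Finite
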