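import Vale.Agent.P078.Finite.Expect

/-!
# Truncations in the trace norm, and pinchings by finitely many projections of the MASA
-/

namespace Vale.Agent.P078.Finite

open ComplexInnerProductSpace
open Filter Topology
open Vale.Agent.P078 Vale.Agent.P078.General

universe u

variable {H : Type u} [NormedAddCommGroup H] [InnerProductSpace ℂ H] [CompleteSpace H]
variable {M : VonNeumannAlgebra H} {A : StarSubalgebra ℂ (H →L[ℂ] H)} {Ω : H}

/-- Part above a threshold. -/
noncomputable def exc (z : ℝ) (Y : H →L[ℂ] H) : H →L[ℂ] H := cfc (fun t => max (t - z) 0) Y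

lemma cfc_mem {Y : H →L[ℂ] H} (hY : Y ∈ M) (f : ℝ → ℝ) : cfc f Y ∈ M :=
  mem_vna_of_commute (fun _ hm =>
    ((Commute.cfc_real (commute_of_mem_centralizer hY hm).symm _).eq).symm)

lemma exc_mem {Y : H →L[ℂ] H} (hY : Y ∈ M) (z : ℝ) : exc z Y ∈ M := cfc_mem hY _

lemma sub_exc_le {Y : H →L[ℂ] H} (hY : IsSelfAdjoint Y) (z : ℝ) (v : H) :
    (⟪(Y - exc z Y) v, v⟫).re ≤ z * ‖v‖ ^ 2 := by
  set k := cfc (fun t => Real.sqrt (max (z - t) 0)) Y with hk
  have hks : IsSelfAdjoint k := cfc_predicate _ _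
  have e : (z : ℝ) • (1 : H →L[ℂ] H) - (Y - exc z Y) = k * k := by
    rw [hk, ← cfc_mul (fun t => Real.sqrt (max (z - t) 0)) _ Y, exc]
    conv_lhs => arg 2; arg 1; rw [← cfc_id ℝ Y hY]
    rw [← cfc_const z Y hY |>.trans (Algebra.algebraMap_eq_smul_one z),
      ← cfc_sub (a := Y) id (fun t => max (t - z) 0),
      ← cfc_sub (a := Y) (fun _ : ℝ => z) _]
    refine cfc_congr (fun t _ => ?_)
    simp only [id]
    rw [Real.mul_self_sqrt (le_max_right _ _)]
    rcases le_total t z with h | h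
    · rw [max_eq_right (by linarith), max_eq_left (by linarith)]; ring
    · rw [max_eq_left (by linarith), max_eq_right (by linarith)]; ring
  have h1 : ⟪(k * k) v, v⟫ = ⟪k v, k v⟫ := sa_inner hks _ _
  rw [← e, sub_apply, inner_sub_left, smul_apply, one_apply_eq_self,
    inner_smul_left_eq_smul] at h1
  have h2 := congrArg Complex.re h1
  rw [Complex.sub_re, Complex.smul_re, smul_eq_mul] at h2
  have h3 : (⟪v, v⟫).re = ‖v‖ ^ 2 := by rw [@norm_sq_eq_re_inner ℂ]; rfl
  have h4 : 0 ≤ (⟪k v, k v⟫).re := inner_self_nonneg (𝕜 := ℂ) (x := k v)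
  rw [h3] at h2
  linarith

variable (h : FinSetting M A Ω)
include h

/-- The part of `Y` above `z` is at most the distance of `Y` from the elements below `z`. -/
theorem norm_exc_le {Y W : H →L[ℂ] H} (hY : Y ∈ M) (hYs : IsSelfAdjoint Y) (hW : W ∈ M)
    (hWs : IsSelfAdjoint W) {z : ℝ} (hWz : ∀ v, (⟪W v, v⟫).re ≤ z * ‖v‖ ^ 2) :
    ‖exc z Y Ω‖ ≤ ‖(Y - W) Ω‖ := by
  set k := cfc (fun t => Real.sqrt (max (t - z) 0)) Y with hk
  have hks : IsSelfAdjoint k := cfc_predicate _ _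
  have hkM : k ∈ M := cfc_mem hY _
  have hD : exc z Y = k * k := by
    rw [exc, hk, ← cfc_mul (fun t => Real.sqrt (max (t - z) 0)) _ Y]
    exact cfc_congr (fun t _ => (Real.mul_self_sqrt (le_max_right _ _)).symm)
  have hDs : IsSelfAdjoint (exc z Y) := cfc_predicate _ _
  have hDY : exc z Y * Y = exc z Y * exc z Y + z • exc z Y := by
    rw [exc]
    nth_rw 2 [← cfc_id' ℝ Y hYs]
    rw [← cfc_mul (fun t => max (t - z) 0) (fun t => t) Y,
      ← cfc_mul (fun t => max (t - z) 0) (fun t => max (t - z) 0) Y,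
      ← cfc_smul (R := ℝ) z (fun t => max (t - z) 0) Y,
      ← cfc_add (a := Y) (fun t => max (t - z) 0 * max (t - z) 0) (fun t => z • max (t - z) 0)]
    refine cfc_congr (fun t _ => ?_)
    simp only [smul_eq_mul]
    rcases le_total t z with h' | h'
    · rw [max_eq_right (by linarith)]; ring
    · rw [max_eq_left (by linarith)]; ring
  have h1 : ⟪exc z Y Ω, (Y - W) Ω⟫
      = ⟪exc z Y Ω, exc z Y Ω⟫ + ((z : ℂ) * ⟪k Ω, k Ω⟫ - ⟪k Ω, W (k Ω)⟫) := by
    have e1 : ⟪exc z Y Ω, W Ω⟫ = ⟪k Ω, W (k Ω)⟫ := by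
      rw [inner_eq h, hDs.star_eq, hD, mul_assoc, h.tracial _ hkM _ (mul_mem hkM hW)]
      change ⟪Ω, k (W (k Ω))⟫ = _
      rw [← sa_inner hks]
    have e2 : ⟪exc z Y Ω, Y Ω⟫
        = ⟪exc z Y Ω, exc z Y Ω⟫ + (z : ℂ) * ⟪k Ω, k Ω⟫ := by
      rw [inner_eq h, hDs.star_eq, hDY, add_apply, inner_add_right, smul_apply,
        ← Complex.coe_smul, inner_smul_right, inner_eq h (exc z Y) (exc z Y), hDs.star_eq,
        inner_eq h k k, hks.star_eq, ← hD]
    rw [sub_apply, inner_sub_right, e1, e2]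
    ring
  have hre : ∀ u : H, (⟪u, u⟫).re = ‖u‖ ^ 2 := fun u => by
    rw [@norm_sq_eq_re_inner ℂ]; rfl
  have h2 := congrArg Complex.re h1
  rw [Complex.add_re, Complex.sub_re, Complex.re_ofReal_mul, hre, hre,
    ← sa_inner hWs] at h2
  have h3 := hWz (k Ω)
  have h4 : (⟪exc z Y Ω, (Y - W) Ω⟫).re ≤ ‖exc z Y Ω‖ * ‖(Y - W) Ω‖ :=
    (Complex.re_le_norm _).trans (norm_inner_le_norm _ _)
  rcases eq_or_lt_of_le (norm_nonneg (exc z Y Ω)) with h0 | h0
  · rw [← h0]; positivity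
  · exact le_of_mul_le_mul_left (by nlinarith) h0

omit h in
lemma clamp_continuous (R : ℝ) : Continuous (clamp R) :=
  continuous_const.max (continuous_const.min continuous_id)

omit h in
lemma norm_cfc_clamp_le {R : ℝ} (hR : 0 ≤ R) (Y : H →L[ℂ] H) : ‖cfc (clamp R) Y‖ ≤ R := by
  refine norm_cfc_le hR (fun t _ => ?_)
  rw [Real.norm_eq_abs, abs_le]
  exact ⟨le_max_left _ _, max_le (by linarith) (min_le_left _ _)⟩

omit h in
/-- Distance to the truncation. -/
lemma norm_sub_clamp_le {Y : H →L[ℂ] H} (hYs : IsSelfAdjoint Y) {R : ℝ} (hR : 0 ≤ R) :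
    ‖(Y - cfc (clamp R) Y) Ω‖ ≤ ‖exc R Y Ω‖ + ‖exc R (-Y) Ω‖ := by
  have e : Y - cfc (clamp R) Y = exc R Y - exc R (-Y) := by
    rw [exc, exc, ← cfc_comp_neg (a := Y) (fun t => max (t - R) 0),
      ← cfc_sub (a := Y) (fun t => max (t - R) 0) (fun t => max (-t - R) 0)]
    conv_lhs => arg 1; rw [← cfc_id' ℝ Y hYs]
    rw [← cfc_sub (a := Y) (fun t => t) (clamp R) continuousOn_id (clamp_continuous R).continuousOn]
    refine cfc_congr (fun t _ => ?_)
    simp only [clamp]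
    rcases le_total t R with h1 | h1 <;> rcases le_total (-R) t with h2 | h2
    · rw [min_eq_right h1, max_eq_right h2, max_eq_right (by linarith),
        max_eq_right (by linarith)]
      ring
    · rw [min_eq_right h1, max_eq_left h2, max_eq_right (by linarith),
        max_eq_left (by linarith)]
      ring
    · rw [min_eq_left h1, max_eq_right (by linarith), max_eq_left (by linarith),
        max_eq_right (by linarith)]
      ring
    · rw [min_eq_left h1, max_eq_right (by linarith), max_eq_left (by linarith),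
        max_eq_right (by linarith)]
      ring
  rw [e, sub_apply]
  exact norm_sub_le _ _

omit h in
/-- A partition from a finite family of projections. -/
def partOf {r : ℕ} (q : Fin r → (H →L[ℂ] H)) (hq : ∀ i, q i ∈ A ∧ IsStarProjection (q i))
    (ho : ∀ i j, i ≠ j → q i * q j = 0) (ht : ∑ i, q i = 1) : Part A :=
  ⟨r, q, fun i => (hq i).1, fun i => (hq i).2, ho, ht⟩

omit h in
lemma trivPart_le (P : Part A) :
    (partOf (A := A) (fun _ : Fin 1 => (1 : H →L[ℂ] H))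
      (fun _ => ⟨one_mem A, IsStarProjection.one _⟩)
      (fun i j h => absurd (Subsingleton.elim i j) h) (by simp)) ≤ P :=
  fun _ => ⟨(0 : Fin 1), one_mul _⟩

lemma norm_pinch_apply_le (P : Part A) {y : H →L[ℂ] H} (hy : y ∈ M) :
    ‖P.pinch y Ω‖ ≤ ‖y Ω‖ := by
  refine (norm_pinch_apply_antitone h (trivPart_le P) hy).trans (le_of_eq ?_)
  change ‖(∑ _i : Fin 1, (1 : H →L[ℂ] H) * y * 1) Ω‖ = _
  simp

omit h in
lemma pinch_isSelfAdjoint (P : Part A) {y : H →L[ℂ] H} (hy : IsSelfAdjoint y) :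
    IsSelfAdjoint (P.pinch y) :=
  isSelfAdjoint_sum _ (fun i _ => by
    rw [IsSelfAdjoint, star_mul, star_mul, (P.proj i).isSelfAdjoint.star_eq, hy.star_eq, mul_assoc])

omit h in
lemma re_inner_pinch_le (P : Part A) {W : H →L[ℂ] H} {z : ℝ}
    (hW : ∀ v, (⟪W v, v⟫).re ≤ z * ‖v‖ ^ 2) (v : H) :
    (⟪P.pinch W v, v⟫).re ≤ z * ‖v‖ ^ 2 := by
  rw [← P.norm_sq_sum v, Finset.mul_sum, Part.pinch, _root_.sum_apply, sum_inner, Complex.re_sum]
  refine Finset.sum_le_sum (fun i _ => ?_)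
  change (⟪P.e i (W (P.e i v)), v⟫).re ≤ _
  rw [sa_inner (P.proj i).isSelfAdjoint]
  exact hW _

omit h in
lemma pinch_sub (P : Part A) (x y : H →L[ℂ] H) : P.pinch (x - y) = P.pinch x - P.pinch y := by
  simp [Part.pinch, mul_sub, sub_mul, Finset.sum_sub_distrib]

lemma norm_plim_apply_le {y : H →L[ℂ] H} (hy : y ∈ M) : ‖plim h.masa y Ω‖ ≤ ‖y Ω‖ := by
  refine le_of_forall_pos_le_add (fun η hη => ?_)
  obtain ⟨P, hP⟩ := tendsto_pinch h hy hη
  have h1 := hP P le_rfl
  rw [sub_apply] at h1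
  have h2 := norm_sub_norm_le (plim h.masa y Ω) (P.pinch y Ω)
  rw [norm_sub_rev] at h2
  linarith [norm_pinch_apply_le h P hy]

end Vale.Agent.P078.Finite
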